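import Mathlib

/-!
The threshold family of a nonnegatively weighted set of items with unequal probabilities is small.
-/

open Finset

namespace Vale.Agent.P034

variable {ι : Type*} [DecidableEq ι]

theorem succ_mul_esymm_le (s : Finset ι) (x : ι → ℝ) (hx : ∀ a ∈ s, 0 ≤ x a) (k : ℕ) :
    ((k : ℝ) + 1) * ∑ A ∈ s.powersetCard (k + 1), ∏ a ∈ A, x a
      ≤ (∑ a ∈ s, x a) * ∑ A ∈ s.powersetCard k, ∏ a ∈ A, x a := by
  have e1 : ((k : ℝ) + 1) * ∑ A ∈ s.powersetCard (k + 1), ∏ a ∈ A, x a =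
      ∑ z ∈ (s.powersetCard (k + 1)).sigma (fun A => A), x z.2 * ∏ b ∈ z.1.erase z.2, x b := by
    rw [Finset.sum_sigma, Finset.mul_sum]
    refine Finset.sum_congr rfl fun A hA => ?_
    rw [Finset.sum_congr rfl fun a ha => Finset.mul_prod_erase A x ha, Finset.sum_const,
      (Finset.mem_powersetCard.1 hA).2, nsmul_eq_mul]
    push_cast
    ring
  have hinj : Set.InjOn (fun z : (_A : Finset ι) × ι => (z.2, z.1.erase z.2))
      ↑((s.powersetCard (k + 1)).sigma (fun A => A)) := by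
    rintro ⟨A, a⟩ hA ⟨B, b⟩ hB h
    simp only [Finset.coe_sigma, Set.mem_sigma_iff, Finset.mem_coe] at hA hB
    simp only [Prod.mk.injEq] at h
    obtain ⟨rfl, h2⟩ := h
    have : A = B := by rw [← Finset.insert_erase hA.2, ← Finset.insert_erase hB.2, h2]
    rw [this]
  rw [e1, Finset.sum_mul_sum, ← Finset.sum_product']
  calc ∑ z ∈ (s.powersetCard (k + 1)).sigma (fun A => A), x z.2 * ∏ b ∈ z.1.erase z.2, x b
      = ∑ w ∈ ((s.powersetCard (k + 1)).sigma (fun A => A)).image
          (fun z => (z.2, z.1.erase z.2)), x w.1 * ∏ b ∈ w.2, x b :=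
        (Finset.sum_image (f := fun w : ι × Finset ι => x w.1 * ∏ b ∈ w.2, x b) hinj).symm
    _ ≤ _ := by
        refine Finset.sum_le_sum_of_subset_of_nonneg ?_ ?_
        · intro w hw
          obtain ⟨⟨A, a⟩, hz, rfl⟩ := Finset.mem_image.1 hw
          obtain ⟨hA, ha⟩ := Finset.mem_sigma.1 hz
          obtain ⟨hs, hc⟩ := Finset.mem_powersetCard.1 hA
          refine Finset.mem_product.2 ⟨hs ha, Finset.mem_powersetCard.2
            ⟨(Finset.erase_subset _ _).trans hs, ?_⟩⟩
          rw [Finset.card_erase_of_mem ha, hc]; rfl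
        · intro w hw _
          obtain ⟨ha, hA⟩ := Finset.mem_product.1 hw
          exact mul_nonneg (hx _ ha) (Finset.prod_nonneg fun b hb =>
            hx b ((Finset.mem_powersetCard.1 hA).1 hb))

theorem factorial_mul_esymm_le (s : Finset ι) (x : ι → ℝ) (hx : ∀ a ∈ s, 0 ≤ x a) (k : ℕ) :
    (k.factorial : ℝ) * ∑ A ∈ s.powersetCard k, ∏ a ∈ A, x a ≤ (∑ a ∈ s, x a) ^ k := by
  induction k with
  | zero => simp
  | succ k ih =>
    have h := succ_mul_esymm_le s x hx k
    have h0 : 0 ≤ ∑ a ∈ s, x a := Finset.sum_nonneg hx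
    rw [Nat.factorial_succ, pow_succ]
    push_cast
    nlinarith [mul_le_mul_of_nonneg_left h (Nat.cast_nonneg (α := ℝ) k.factorial),
      mul_le_mul_of_nonneg_left ih h0]

theorem esymm_le {s : Finset ι} {x : ι → ℝ} (hx : ∀ a ∈ s, 0 ≤ x a) {k : ℕ} (hk : 1 ≤ k) {c : ℝ}
    (hc : ∑ a ∈ s, x a ≤ c * k) :
    ∑ A ∈ s.powersetCard k, ∏ a ∈ A, x a ≤ (3 * c) ^ k := by
  have h1 := factorial_mul_esymm_le s x hx k
  have hk0 : (0 : ℝ) < k := by exact_mod_cast hk
  have hfac : (k : ℝ) ^ k ≤ 3 ^ k * k.factorial := by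
    have h2 := Real.pow_div_factorial_le_exp (k : ℝ) hk0.le k
    rw [div_le_iff₀ (by positivity)] at h2
    refine h2.trans (mul_le_mul_of_nonneg_right ?_ (by positivity))
    rw [show (k : ℝ) = (k : ℕ) * (1 : ℝ) by ring, Real.exp_nat_mul]
    exact pow_le_pow_left₀ (Real.exp_pos _).le (by linarith [Real.exp_one_lt_d9]) k
  have h3 : (∑ a ∈ s, x a) ^ k ≤ (c * k) ^ k :=
    pow_le_pow_left₀ (Finset.sum_nonneg hx) hc k
  have hc0 : 0 ≤ c := nonneg_of_mul_nonneg_left ((Finset.sum_nonneg hx).trans hc) hk0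
  refine le_of_mul_le_mul_left ?_ (by positivity : (0 : ℝ) < k.factorial)
  calc (k.factorial : ℝ) * ∑ A ∈ s.powersetCard k, ∏ a ∈ A, x a ≤ c ^ k * (k : ℝ) ^ k := by
        rw [← mul_pow]; exact h1.trans h3
    _ ≤ c ^ k * (3 ^ k * k.factorial) := mul_le_mul_of_nonneg_left hfac (pow_nonneg hc0 k)
    _ = _ := by rw [mul_pow]; ring

theorem sum_level_mul_half_pow (J : ℕ) :
    ∑ j ∈ Finset.range J, (j : ℝ) * (1 / 2) ^ j = 2 - (2 * J + 2) * (1 / 2) ^ J := by
  induction J with
  | zero => norm_num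
  | succ J ih => rw [Finset.sum_range_succ, ih, pow_succ]; push_cast; ring

theorem sum_eighth_pow (J : ℕ) :
    ∑ j ∈ Finset.range J, (1 / 8 : ℝ) ^ (j + 1) = 1 / 7 - 1 / 7 * (1 / 8) ^ J := by
  induction J with
  | zero => norm_num
  | succ J ih => rw [Finset.sum_range_succ, ih, pow_succ]; ring

/-- A threshold family of weighted items is covered cheaply by uniform levels. -/
theorem exists_cheap_witnesses (s : Finset ι) (h q : ι → ℝ) (hh : ∀ a ∈ s, 0 ≤ h a)
    (hq : ∀ a ∈ s, 0 ≤ q a) (hsum : ∑ a ∈ s, h a * q a ≤ 1) :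
    ∃ 𝒢 : Finset (Finset ι), (∀ D ⊆ s, 1 ≤ ∑ a ∈ D, h a → ∃ A ∈ 𝒢, A ⊆ D) ∧
      ∑ A ∈ 𝒢, ∏ a ∈ A, q a / (24 * 2 ^ 24) ≤ 1 / 2 := by
  classical
  obtain ⟨J, hJ⟩ := exists_pow_lt_of_lt_one
    (show (0 : ℝ) < 1 / (4 * ((s.card : ℝ) + 1)) by positivity) (show (1 / 2 : ℝ) < 1 by norm_num)
  let lev : ι → ℕ := fun a =>
    if hl : ∃ j, (1 / 2 : ℝ) ^ (j + 1) < h a then Nat.find hl else J
  let cl : ℕ → Finset ι := fun j => s.filter fun a => lev a = j
  let μ : ℕ → ℝ := fun j => ∑ a ∈ cl j, h a * q a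
  let k : ℕ → ℕ := fun j => ⌊μ j * 2 ^ j / 4⌋₊ + j / 8 + 1
  have hlev : ∀ a, lev a < J →
      (1 / 2 : ℝ) ^ (lev a + 1) < h a ∧ (1 ≤ lev a → h a ≤ (1 / 2) ^ lev a) := by
    intro a
    by_cases hl : ∃ j, (1 / 2 : ℝ) ^ (j + 1) < h a
    · have e : lev a = Nat.find hl := dif_pos hl
      intro _
      rw [e]
      refine ⟨Nat.find_spec hl, fun h1 => ?_⟩
      have := Nat.find_min hl (show Nat.find hl - 1 < Nat.find hl by omega)
      rw [Nat.sub_add_cancel h1, not_lt] at this
      exact this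
    · intro hc
      rw [show lev a = J from dif_neg hl] at hc
      exact absurd hc (lt_irrefl _)
  have hhigh : ∀ a, J ≤ lev a → h a ≤ (1 / 2 : ℝ) ^ J := by
    intro a ha
    by_cases hl : ∃ j, (1 / 2 : ℝ) ^ (j + 1) < h a
    · have e : lev a = Nat.find hl := dif_pos hl
      rw [e] at ha
      rcases Nat.eq_zero_or_pos J with rfl | hJ0
      · exfalso
        norm_num at hJ
        have := inv_le_one_of_one_le₀ (show (1 : ℝ) ≤ (s.card : ℝ) + 1 by simp)
        linarith
      · have := Nat.find_min hl (show J - 1 < Nat.find hl by omega)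
        rwa [Nat.sub_add_cancel hJ0, not_lt] at this
    · push Not at hl
      exact (hl J).trans (pow_le_pow_of_le_one (by norm_num) (by norm_num) (by omega))
  have hμ0 : ∀ j, 0 ≤ μ j := fun j => Finset.sum_nonneg fun a ha =>
    mul_nonneg (hh a (Finset.mem_filter.1 ha).1) (hq a (Finset.mem_filter.1 ha).1)
  have hdisj : ∀ t : Finset ι, ∀ f : ι → ℝ,
      ∑ j ∈ Finset.range J, ∑ a ∈ t.filter (fun a => lev a = j), f a =
        ∑ a ∈ t.filter (fun a => lev a < J), f a := by
    intro t f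
    rw [← Finset.sum_fiberwise_of_maps_to (s := t.filter fun a => lev a < J)
      (t := Finset.range J) (g := lev) (fun a ha => Finset.mem_range.2 (Finset.mem_filter.1 ha).2)]
    refine Finset.sum_congr rfl fun j hj => Finset.sum_congr ?_ fun _ _ => rfl
    ext a
    simp only [Finset.mem_filter]
    constructor
    · rintro ⟨h1, h2⟩; exact ⟨⟨h1, h2 ▸ Finset.mem_range.1 hj⟩, h2⟩
    · rintro ⟨⟨h1, -⟩, h2⟩; exact ⟨h1, h2⟩
  have hμsum : ∑ j ∈ Finset.range J, μ j ≤ 1 := by
    refine le_of_eq_of_le (hdisj s fun a => h a * q a) (le_trans ?_ hsum)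
    exact Finset.sum_le_sum_of_subset_of_nonneg (Finset.filter_subset _ _) fun a ha _ =>
      mul_nonneg (hh a ha) (hq a ha)
  refine ⟨(Finset.range J).biUnion fun j => (cl j).powersetCard (k j), fun D hD hw => ?_, ?_⟩
  · by_contra hno
    push Not at hno
    have hcard : ∀ j ∈ Finset.range J, (D.filter fun a => lev a = j).card ≤ k j - 1 := by
      intro j hj
      by_contra hc
      obtain ⟨A, hA, hAc⟩ := Finset.exists_subset_card_eq
        (show k j ≤ (D.filter fun a => lev a = j).card by omega)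
      refine hno A (Finset.mem_biUnion.2 ⟨j, hj, Finset.mem_powersetCard.2 ⟨?_, hAc⟩⟩)
        (hA.trans (Finset.filter_subset _ _))
      exact hA.trans (Finset.filter_subset_filter _ hD)
    have hsmall : ∀ j ∈ Finset.range J, ∑ a ∈ D.filter (fun a => lev a = j), h a ≤
        μ j / 4 + (j : ℝ) * (1 / 2) ^ j / 8 := by
      intro j hj
      have hkj : ((k j - 1 : ℕ) : ℝ) ≤ μ j * 2 ^ j / 4 + (j : ℝ) / 8 := by
        simp only [k, Nat.add_sub_cancel]
        push_cast
        refine add_le_add (Nat.floor_le (by have := hμ0 j; positivity)) ?_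
        exact Nat.cast_div_le.trans (by norm_num)
      rcases Nat.eq_zero_or_pos j with rfl | hj0
      · have hz : k 0 = 1 := by
          simp only [k]
          have : ⌊μ 0 * 2 ^ 0 / 4⌋₊ = 0 := Nat.floor_eq_zero.2 (by
            have := (Finset.single_le_sum (fun i _ => hμ0 i) hj).trans hμsum
            norm_num; linarith)
          omega
        have h0 := hcard 0 hj
        rw [hz, Nat.sub_self, Nat.le_zero, Finset.card_eq_zero] at h0
        rw [h0, Finset.sum_empty]
        have := hμ0 0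
        positivity
      · have hb : ∀ a ∈ D.filter (fun a => lev a = j), h a ≤ (1 / 2 : ℝ) ^ j := by
          intro a ha
          have e := (Finset.mem_filter.1 ha).2
          rw [← e]
          exact (hlev a (e ▸ Finset.mem_range.1 hj)).2 (e ▸ hj0)
        refine (Finset.sum_le_card_nsmul _ _ _ hb).trans ?_
        rw [nsmul_eq_mul]
        refine (mul_le_mul_of_nonneg_right ((Nat.cast_le.2 (hcard j hj)).trans hkj)
          (by positivity)).trans (le_of_eq ?_)
        rw [add_mul, div_mul_eq_mul_div, div_mul_eq_mul_div, mul_assoc (μ j), ← mul_pow]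
        norm_num
    have htail : ∑ a ∈ D.filter (fun a => ¬ lev a < J), h a ≤ 1 / 4 := by
      refine (Finset.sum_le_card_nsmul _ _ ((1 / 2 : ℝ) ^ J)
        fun a ha => hhigh a (not_lt.1 (Finset.mem_filter.1 ha).2)).trans ?_
      rw [nsmul_eq_mul]
      have hc : ((D.filter fun a => ¬ lev a < J).card : ℝ) ≤ (s.card : ℝ) + 1 := by
        have := Finset.card_le_card ((Finset.filter_subset (fun a => ¬ lev a < J) D).trans hD)
        have : ((D.filter fun a => ¬ lev a < J).card : ℝ) ≤ (s.card : ℝ) := by exact_mod_cast this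
        linarith
      refine (mul_le_mul hc hJ.le (by positivity) (by positivity)).trans (le_of_eq ?_)
      field_simp
    have hmain : ∑ a ∈ D.filter (fun a => lev a < J), h a ≤ 1 / 2 := by
      rw [← hdisj D h]
      refine (Finset.sum_le_sum hsmall).trans ?_
      rw [Finset.sum_add_distrib, ← Finset.sum_div, ← Finset.sum_div, sum_level_mul_half_pow]
      have : (0 : ℝ) ≤ (2 * (J : ℝ) + 2) * (1 / 2) ^ J := by positivity
      linarith
    rw [← Finset.sum_filter_add_sum_filter_not D (fun a => lev a < J)] at hw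
    linarith
  · have hclass : ∀ j ∈ Finset.range J,
        ∑ A ∈ (cl j).powersetCard (k j), ∏ a ∈ A, q a / (24 * 2 ^ 24) ≤ (1 / 8 : ℝ) ^ (j + 1) := by
      intro j hj
      have hsub : ∀ a ∈ cl j, 0 ≤ q a / (24 * 2 ^ 24) := fun a ha =>
        div_nonneg (hq a (Finset.mem_filter.1 ha).1) (by norm_num)
      have hfl := Nat.lt_floor_add_one (μ j * 2 ^ j / 4)
      have hk1 : μ j * 2 ^ j / 4 ≤ (k j : ℝ) := by
        simp only [k]; push_cast
        linarith [Nat.cast_nonneg (α := ℝ) (j / 8)]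
      have hk2 : 3 * (j + 1) ≤ 24 * k j := by simp only [k]; omega
      have hq' : ∑ a ∈ cl j, q a ≤ 8 * (k j : ℝ) := by
        have h1 : ∑ a ∈ cl j, (1 / 2 : ℝ) ^ (j + 1) * q a ≤ μ j := by
          refine Finset.sum_le_sum fun a ha => ?_
          obtain ⟨has, e⟩ := Finset.mem_filter.1 ha
          refine mul_le_mul_of_nonneg_right ?_ (hq a has)
          rw [← e]; exact (hlev a (e ▸ Finset.mem_range.1 hj)).1.le
        rw [← Finset.mul_sum, one_div, inv_pow, inv_mul_le_iff₀ (by positivity), pow_succ] at h1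
        nlinarith
      have hs := esymm_le (s := cl j) hsub (c := 8 / (24 * 2 ^ 24)) (k := k j)
        (by simp only [k]; omega) (by
          rw [← Finset.sum_div, div_mul_eq_mul_div]
          gcongr)
      refine hs.trans ?_
      rw [show (3 * (8 / (24 * 2 ^ 24)) : ℝ) = (1 / 2) ^ 24 by norm_num,
        show (1 / 8 : ℝ) = (1 / 2) ^ 3 by norm_num, ← pow_mul, ← pow_mul]
      exact pow_le_pow_of_le_one (by norm_num) (by norm_num) hk2
    refine le_trans ?_ (show (1 / 7 : ℝ) - 1 / 7 * (1 / 8) ^ J ≤ 1 / 2 by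
      have : (0 : ℝ) ≤ (1 / 8) ^ J := by positivity
      linarith)
    rw [← sum_eighth_pow]
    refine le_trans (le_of_eq ?_) (Finset.sum_le_sum hclass)
    refine Finset.sum_biUnion fun i _ j _ hij => Finset.disjoint_left.2 fun A hA hB => ?_
    obtain ⟨a, ha⟩ := Finset.card_pos.1
      (show 0 < A.card by rw [(Finset.mem_powersetCard.1 hA).2]; simp only [k]; omega)
    have h1 := (Finset.mem_filter.1 ((Finset.mem_powersetCard.1 hA).1 ha)).2
    have h2 := (Finset.mem_filter.1 ((Finset.mem_powersetCard.1 hB).1 ha)).2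
    exact hij (h1.symm.trans h2)

end Vale.Agent.P034
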