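import Vale.Agent.P034.Core

/-!
Fractional covers supported on a union of laminar families are rounded with a linear loss.
-/

open Finset

namespace Vale.Agent.P034

variable {X : Type*} [Fintype X] [DecidableEq X]

/-- The members of a laminar family containing a given nonempty set have distinct sizes. -/
theorem sum_supersets_le (M : Finset (Finset X))
    (hM : ∀ A ∈ M, ∀ B ∈ M, A ⊆ B ∨ B ⊆ A ∨ Disjoint A B) {T : Finset X} (hT : T.Nonempty)
    {p R : ℝ} (hp0 : 0 ≤ p) (hp1 : p ≤ 1) (hR : 2 ≤ R) :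
    ∑ S ∈ M.filter (fun S => T ⊆ S), (p / R) ^ S.card ≤ p ^ T.card * (2 / R) := by
  have hinj : Set.InjOn Finset.card (↑(M.filter fun S => T ⊆ S) : Set (Finset X)) := by
    intro A hA B hB he
    rw [Finset.mem_coe, Finset.mem_filter] at hA hB
    obtain ⟨t, ht⟩ := hT
    rcases hM A hA.1 B hB.1 with h | h | h
    · exact Finset.eq_of_subset_of_card_le h he.ge
    · exact (Finset.eq_of_subset_of_card_le h he.le).symm
    · exact absurd (hB.2 ht) (Finset.disjoint_left.1 h (hA.2 ht))
  have hR0 : (0 : ℝ) < R := by linarith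
  have h1R : 0 ≤ 1 / R := by positivity
  have h2R : 1 / R ≤ 1 / 2 := one_div_le_one_div_of_le two_pos hR
  calc ∑ S ∈ M.filter (fun S => T ⊆ S), (p / R) ^ S.card
      ≤ ∑ S ∈ M.filter (fun S => T ⊆ S), p ^ T.card * (1 / R) ^ S.card := by
        refine Finset.sum_le_sum fun S hS => ?_
        rw [div_eq_mul_one_div p R, mul_pow]
        exact mul_le_mul_of_nonneg_right (pow_le_pow_of_le_one hp0 hp1
          (Finset.card_le_card (Finset.mem_filter.1 hS).2)) (by positivity)
    _ = p ^ T.card * ∑ m ∈ (M.filter fun S => T ⊆ S).image Finset.card, (1 / R) ^ m := by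
        rw [← Finset.mul_sum, Finset.sum_image hinj]
    _ ≤ p ^ T.card * ∑ m ∈ Finset.range (Fintype.card X), (1 / R) ^ (m + 1) := by
        refine mul_le_mul_of_nonneg_left ?_ (by positivity)
        rw [Finset.range_eq_Ico,
          show ∑ m ∈ Finset.Ico 0 (Fintype.card X), (1 / R) ^ (m + 1) =
            ∑ m ∈ Finset.Ico 1 (Fintype.card X + 1), (1 / R) ^ m by
            rw [Finset.sum_Ico_add' (fun m => (1 / R) ^ m)]]
        refine Finset.sum_le_sum_of_subset_of_nonneg (fun m hm => ?_) fun _ _ _ => by positivity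
        obtain ⟨S, hS, rfl⟩ := Finset.mem_image.1 hm
        have := Finset.card_le_card (Finset.mem_filter.1 hS).2
        have := hT.card_pos
        have := S.card_le_univ
        rw [Finset.mem_Ico]; omega
    _ ≤ p ^ T.card * (2 / R) := by
        refine mul_le_mul_of_nonneg_left ?_ (by positivity)
        calc ∑ m ∈ Finset.range (Fintype.card X), (1 / R) ^ (m + 1)
            ≤ ∑ m ∈ Finset.range (Fintype.card X), (1 / R) * (1 / 2) ^ m :=
              Finset.sum_le_sum fun m _ => by
                rw [pow_succ']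
                exact mul_le_mul_of_nonneg_left (pow_le_pow_left₀ h1R h2R m) h1R
          _ ≤ (1 / R) * 2 := by
              rw [← Finset.mul_sum]
              exact mul_le_mul_of_nonneg_left (sum_geometric_two_le _) h1R
          _ = 2 / R := by ring

theorem sum_biUnion_le_sum_sum {α β : Type*} [DecidableEq α] [DecidableEq β] (D : Finset α)
    (t : α → Finset β) {f : β → ℝ} (hf : ∀ b, 0 ≤ f b) :
    ∑ b ∈ D.biUnion t, f b ≤ ∑ a ∈ D, ∑ b ∈ t a, f b := by
  induction D using Finset.induction_on with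
  | empty => simp
  | @insert a D ha ih =>
    rw [Finset.biUnion_insert, Finset.sum_insert ha]
    have h := Finset.sum_union_inter (s₁ := t a) (s₂ := D.biUnion t) (f := f)
    have h0 : 0 ≤ ∑ b ∈ t a ∩ D.biUnion t, f b := Finset.sum_nonneg fun b _ => hf b
    linarith

theorem laminar_small {r : ℕ} (hr : 1 ≤ r) (F : Finset (Finset X))
    (L : Fin r → Finset (Finset X))
    (hL : ∀ i, ∀ A ∈ L i, ∀ B ∈ L i, A ⊆ B ∨ B ⊆ A ∨ Disjoint A B)
    (g : Finset X → ℝ) (hg : ∀ S, 0 ≤ g S)
    (hsupp : ∀ S, g S ≠ 0 → S.Nonempty → ∃ i, S ∈ L i)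
    (hcov : ∀ H ∈ F, 1 ≤ ∑ S ∈ H.powerset, g S) {p : ℝ} (hp0 : 0 ≤ p) (hp1 : p ≤ 1)
    (hcost : ∑ S, g S * p ^ S.card ≤ 1 / 2) :
    ∃ G : Finset (Finset X), (∀ H ∈ F, ∃ S ∈ G, S ⊆ H) ∧
      ∑ S ∈ G, (p / (48 * 2 ^ 24 * r)) ^ S.card ≤ 1 / 2 := by
  classical
  let M : Fin r → Finset (Finset X) := fun i =>
    (L i).filter fun S => S.Nonempty ∧ ∀ j, j < i → S ∉ L j
  have hMlam : ∀ i, ∀ A ∈ M i, ∀ B ∈ M i, A ⊆ B ∨ B ⊆ A ∨ Disjoint A B := fun i A hA B hB =>
    hL i A (Finset.mem_filter.1 hA).1 B (Finset.mem_filter.1 hB).1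
  have hMdisj : ∀ i j, i ≠ j → Disjoint (M i) (M j) := by
    intro i j hij
    rw [Finset.disjoint_left]
    intro S hi hj
    simp only [M, Finset.mem_filter] at hi hj
    rcases lt_or_gt_of_ne hij with h | h
    · exact hj.2.2 i h hi.1
    · exact hi.2.2 j h hj.1
  let items : Finset ((_i : Fin r) × Finset X) := Finset.univ.sigma M
  let w : (_i : Fin r) × Finset X → ℝ := fun a =>
    2 * r * ∑ T ∈ (M a.1).filter (fun T => T ⊆ a.2), g T
  let qq : (_i : Fin r) × Finset X → ℝ := fun a => (p / (2 * r)) ^ a.2.card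
  have hr0 : (1 : ℝ) ≤ r := by exact_mod_cast hr
  have hw : ∀ a ∈ items, 0 ≤ w a := fun a _ =>
    mul_nonneg (by positivity) (Finset.sum_nonneg fun T _ => hg T)
  have hμ : ∑ a ∈ items, w a * qq a ≤ 1 := by
    calc ∑ a ∈ items, w a * qq a
        = 2 * r * ∑ i : Fin r, ∑ T ∈ M i,
            g T * ∑ S ∈ (M i).filter (fun S => T ⊆ S), (p / (2 * r)) ^ S.card := by
          simp only [items, Finset.sum_sigma, w, qq, Finset.mul_sum, Finset.sum_mul]
          refine Finset.sum_congr rfl fun i _ => ?_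
          refine (Finset.sum_comm' (t' := M i) (s' := fun T => (M i).filter fun S => T ⊆ S) ?_).trans
            (Finset.sum_congr rfl fun T _ => Finset.sum_congr rfl fun S _ => by ring)
          intro S T
          simp only [Finset.mem_filter]
          tauto
      _ ≤ 2 * r * ∑ i : Fin r, ∑ T ∈ M i, g T * (p ^ T.card * (2 / (2 * r))) := by
          refine mul_le_mul_of_nonneg_left (Finset.sum_le_sum fun i _ =>
            Finset.sum_le_sum fun T hT => mul_le_mul_of_nonneg_left ?_ (hg T)) (by positivity)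
          exact sum_supersets_le (M i) (hMlam i) (Finset.mem_filter.1 hT).2.1 hp0 hp1 (by linarith)
      _ = 2 * ∑ T ∈ Finset.univ.biUnion M, g T * p ^ T.card := by
          rw [Finset.sum_biUnion (fun i _ j _ h => hMdisj i j h), Finset.mul_sum, Finset.mul_sum]
          refine Finset.sum_congr rfl fun i _ => ?_
          rw [Finset.mul_sum, Finset.mul_sum]
          refine Finset.sum_congr rfl fun T _ => ?_
          field_simp
      _ ≤ 2 * (1 / 2) := by
          refine mul_le_mul_of_nonneg_left (le_trans ?_ hcost) (by norm_num)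
          exact Finset.sum_le_univ_sum_of_nonneg fun T => mul_nonneg (hg T) (by positivity)
      _ = 1 := by norm_num
  obtain ⟨𝒢, h𝒢, hcost'⟩ := exists_cheap_witnesses items w qq hw
    (fun a _ => by simp only [qq]; positivity) hμ
  let 𝒢' := 𝒢.filter fun A =>
    A ⊆ items ∧ (A : Set ((_i : Fin r) × Finset X)).PairwiseDisjoint (fun a => a.2)
  refine ⟨𝒢'.image fun A => A.biUnion fun a => a.2, fun H hH => ?_, ?_⟩
  · have hempty : g ∅ ≤ 1 / 2 := by
      refine le_trans ?_ hcost
      have := Finset.single_le_sum (f := fun S => g S * p ^ S.card)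
        (fun S _ => mul_nonneg (hg S) (by positivity)) (Finset.mem_univ (∅ : Finset X))
      simpa using this
    have hhalf : (1 / 2 : ℝ) ≤ ∑ i : Fin r, ∑ T ∈ (M i).filter (fun T => T ⊆ H), g T := by
      have h1 := hcov H hH
      rw [← Finset.add_sum_erase _ _ (Finset.empty_mem_powerset H)] at h1
      rw [← Finset.sum_biUnion (fun i _ j _ h => Disjoint.mono (Finset.filter_subset _ _)
        (Finset.filter_subset _ _) (hMdisj i j h))]
      refine le_trans ?_ (Finset.sum_le_sum_of_subset_of_nonneg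
        (s := ((H.powerset.erase ∅).filter fun T => g T ≠ 0)) ?_ fun T _ _ => hg T)
      · rw [Finset.sum_filter_ne_zero]; linarith
      · intro T hT
        simp only [Finset.mem_filter, Finset.mem_erase, Finset.mem_powerset] at hT
        have hne : T.Nonempty := Finset.nonempty_iff_ne_empty.2 hT.1.1
        have hex : (Finset.univ.filter fun i => T ∈ L i).Nonempty := by
          obtain ⟨i, hi⟩ := hsupp T hT.2 hne
          exact ⟨i, by simp [hi]⟩
        refine Finset.mem_biUnion.2
          ⟨_, Finset.mem_univ ((Finset.univ.filter fun i => T ∈ L i).min' hex), ?_⟩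
        simp only [M, Finset.mem_filter]
        refine ⟨⟨(Finset.mem_filter.1 (Finset.min'_mem _ hex)).2, hne, fun j hj hT' => ?_⟩, hT.1.2⟩
        exact absurd (Finset.min'_le (Finset.univ.filter fun i => T ∈ L i) j (by simp [hT']))
          (not_le.2 hj)
    obtain ⟨i, hi⟩ : ∃ i : Fin r, 1 / (2 * (r : ℝ)) ≤ ∑ T ∈ (M i).filter (fun T => T ⊆ H), g T := by
      by_contra hn
      push Not at hn
      have : Nonempty (Fin r) := ⟨⟨0, hr⟩⟩
      have := Finset.sum_lt_sum_of_nonempty Finset.univ_nonempty (fun i _ => hn i)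
      rw [Finset.sum_const, Finset.card_univ, Fintype.card_fin, nsmul_eq_mul] at this
      have e : (r : ℝ) * (1 / (2 * r)) = 1 / 2 := by field_simp
      linarith
    set P := (M i).filter (fun T => T ⊆ H) with hP
    set D := P.filter (fun S => ∀ S' ∈ P, S ⊆ S' → S' = S) with hD
    have hmax : ∀ T ∈ P, ∃ S ∈ D, T ⊆ S := by
      intro T hT
      obtain ⟨S, hS, hS'⟩ := (P.filter fun S => T ⊆ S).exists_max_image Finset.card
        ⟨T, Finset.mem_filter.2 ⟨hT, Finset.Subset.refl T⟩⟩
      obtain ⟨hSP, hTS⟩ := Finset.mem_filter.1 hS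
      refine ⟨S, Finset.mem_filter.2 ⟨hSP, fun S' h1 h2 => ?_⟩, hTS⟩
      exact (Finset.eq_of_subset_of_card_le h2
        (hS' S' (Finset.mem_filter.2 ⟨h1, hTS.trans h2⟩))).symm
    have hcovD : 1 ≤ ∑ a ∈ D.map (Function.Embedding.sigmaMk i), w a := by
      rw [Finset.sum_map]
      simp only [w, Function.Embedding.sigmaMk_apply, ← Finset.mul_sum]
      have h1 : ∑ T ∈ P, g T ≤ ∑ S ∈ D, ∑ T ∈ (M i).filter (fun T => T ⊆ S), g T := by
        have hsub : ∑ T ∈ P, g T ≤ ∑ T ∈ D.biUnion (fun S => (M i).filter fun T => T ⊆ S), g T :=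
          Finset.sum_le_sum_of_subset_of_nonneg (fun T hT => by
            obtain ⟨S, hS, hTS⟩ := hmax T hT
            exact Finset.mem_biUnion.2
              ⟨S, hS, Finset.mem_filter.2 ⟨(Finset.mem_filter.1 hT).1, hTS⟩⟩)
            fun T _ _ => hg T
        exact hsub.trans (sum_biUnion_le_sum_sum D _ hg)
      have h2 := (mul_le_mul_of_nonneg_left (hi.trans h1) (show (0 : ℝ) ≤ 2 * r by positivity))
      have e : 2 * (r : ℝ) * (1 / (2 * r)) = 1 := by field_simp
      linarith
    obtain ⟨A, hA, hAD⟩ := h𝒢 (D.map (Function.Embedding.sigmaMk i)) (by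
      intro a ha
      obtain ⟨S, hS, rfl⟩ := Finset.mem_map.1 ha
      simp only [items, Finset.mem_sigma, Function.Embedding.sigmaMk_apply, Finset.mem_univ,
        true_and]
      exact (Finset.mem_filter.1 (Finset.mem_filter.1 hS).1).1) hcovD
    refine ⟨_, Finset.mem_image_of_mem _ (Finset.mem_filter.2 ⟨hA, ?_, ?_⟩), ?_⟩
    · intro a ha
      obtain ⟨S, hS, rfl⟩ := Finset.mem_map.1 (hAD ha)
      simp only [items, Finset.mem_sigma, Function.Embedding.sigmaMk_apply, Finset.mem_univ,
        true_and]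
      exact (Finset.mem_filter.1 (Finset.mem_filter.1 hS).1).1
    · intro a ha b hb hab
      obtain ⟨S, hS, rfl⟩ := Finset.mem_map.1 (hAD ha)
      obtain ⟨S', hS', rfl⟩ := Finset.mem_map.1 (hAD hb)
      have hne : S ≠ S' := fun h => hab (by rw [h])
      obtain ⟨hSP, hSm⟩ := Finset.mem_filter.1 hS
      obtain ⟨hS'P, hS'm⟩ := Finset.mem_filter.1 hS'
      rcases hMlam i S (Finset.mem_filter.1 hSP).1 S' (Finset.mem_filter.1 hS'P).1 with h | h | h
      · exact absurd (hSm S' hS'P h).symm hne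
      · exact absurd (hS'm S hSP h) hne
      · exact h
    · intro x hx
      obtain ⟨a, ha, hxa⟩ := Finset.mem_biUnion.1 hx
      obtain ⟨S, hS, rfl⟩ := Finset.mem_map.1 (hAD ha)
      exact (Finset.mem_filter.1 (Finset.mem_filter.1 hS).1).2 hxa
  · have hz : 0 ≤ p / (48 * 2 ^ 24 * r) := by positivity
    refine (Finset.sum_image_le_of_nonneg fun S _ => pow_nonneg hz _).trans ?_
    refine le_trans ?_ ((Finset.sum_le_sum_of_subset_of_nonneg
      (show 𝒢' ⊆ 𝒢 from Finset.filter_subset _ _)
      fun A _ _ => Finset.prod_nonneg fun a _ => by simp only [qq]; positivity).trans hcost')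
    refine Finset.sum_le_sum fun A hA => ?_
    obtain ⟨-, hsub, hpd⟩ := Finset.mem_filter.1 hA
    rw [Finset.card_biUnion hpd, ← Finset.prod_pow_eq_pow_sum]
    refine Finset.prod_le_prod (fun a _ => pow_nonneg hz _) fun a ha => ?_
    obtain ⟨m, hm⟩ : ∃ m, a.2.card = m + 1 := ⟨a.2.card - 1, by
      have := (Finset.mem_filter.1 (Finset.mem_sigma.1 (hsub ha)).2).2.1.card_pos
      omega⟩
    simp only [qq, hm]
    rw [show p / (48 * 2 ^ 24 * r) = p / (2 * r) * (1 / (24 * 2 ^ 24)) by field_simp; ring,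
      mul_pow, div_eq_mul_one_div ((p / (2 * r)) ^ (m + 1))]
    refine mul_le_mul_of_nonneg_left ?_ (by positivity)
    exact (pow_le_pow_of_le_one (by positivity) (by norm_num) (show 1 ≤ m + 1 by omega)).trans_eq
      (pow_one _)

end Vale.Agent.P034
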